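import Vale.Agent.P128.Bridge.Conc.Scale
import Vale.Agent.P128.Bridge.Polar

/-!
# P128 bridge B2a, part 2: the cut competitor on a circle with at most one crossing

`w = m + χ (u ∘ π - m)`, `π` the radial projection onto the circle from inside, `χ` vanishing on
the smaller disc; the jump set inside is a radial segment at the crossing.
-/

open MeasureTheory Set Metric Filter
open scoped ENNReal NNReal Topology Real RealInnerProductSpace

noncomputable section

namespace Vale.Agent.P128.Bridge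

variable {U K : Set ℂ} {u : ℂ → ℝ} {G : ℂ → ℂ} {A M Λ : ℝ}

/-- Radial retraction onto `closedBallᶜ`. -/
def rproj (z : ℂ) (r : ℝ) (y : ℂ) : ℂ := z + max 1 (r / ‖y - z‖) • (y - z)

/-- The interpolation factor. -/
def cutRamp (z : ℂ) (a r : ℝ) (y : ℂ) : ℝ := max 0 (min 1 ((‖y - z‖ - a) / (r - a)))

theorem rproj_of_le {z y : ℂ} {r : ℝ} (hr : 0 < r) (h : r ≤ ‖y - z‖) : rproj z r y = y := by
  rw [rproj, max_eq_left (by rwa [div_le_one (hr.trans_le h)]), one_smul, add_sub_cancel]

theorem rproj_of_lt {z y : ℂ} {r : ℝ} (hy : y ≠ z) (h : ‖y - z‖ ≤ r) :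
    rproj z r y = z + (r / ‖y - z‖) • (y - z) := by
  have : 0 < ‖y - z‖ := norm_pos_iff.2 (sub_ne_zero.2 hy)
  rw [rproj, max_eq_right (by rwa [one_le_div this])]

theorem rproj_circleMap {z : ℂ} {r s θ : ℝ} (hs : 0 < s) (hsr : s ≤ r) :
    rproj z r (circleMap z s θ) = circleMap z r θ := by
  have hne : circleMap z s θ ≠ z := circleMap_ne_center hs.ne'
  have hn : ‖circleMap z s θ - z‖ = s := by
    rw [circleMap_sub_center, norm_circleMap_zero, abs_of_pos hs]
  rw [rproj_of_lt hne (hn.le.trans hsr), hn, circleMap_sub_center]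
  simp only [circleMap, Complex.real_smul, zero_add]
  push_cast
  have : (s : ℂ) ≠ 0 := by exact_mod_cast hs.ne'
  field_simp

theorem continuousOn_rproj (z : ℂ) (r : ℝ) : ContinuousOn (rproj z r) {z}ᶜ := by
  refine continuousOn_const.add (ContinuousOn.smul (continuousOn_const.sup
    (continuousOn_const.div (continuous_id.sub continuous_const).norm.continuousOn ?_))
    (continuous_id.sub continuous_const).continuousOn)
  intro y hy
  simpa [sub_eq_zero] using hy

theorem measurable_rproj (z : ℂ) (r : ℝ) : Measurable (rproj z r) := by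
  unfold rproj
  fun_prop

theorem locallyLipschitzOn_rproj (z : ℂ) (r : ℝ) {y : ℂ} (hy : y ≠ z) :
    ∃ C : ℝ≥0, ∃ V ∈ 𝓝 y, LipschitzOnWith C (rproj z r) V := by
  have hd : 0 < ‖y - z‖ := norm_pos_iff.2 (sub_ne_zero.2 hy)
  have hinv : ContDiffAt ℝ 1 (fun w => r / ‖w - z‖) y :=
    contDiffAt_const.div ((contDiffAt_id.sub contDiffAt_const).norm ℝ (sub_ne_zero.2 hy)) hd.ne'
  obtain ⟨C₁, V₁, hV₁, h₁⟩ :=
    (contDiffAt_const.add (contDiffAt_id.sub contDiffAt_const) :
      ContDiffAt ℝ 1 (fun w : ℂ => z + (w - z)) y).exists_lipschitzOnWith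
  obtain ⟨C₂, V₂, hV₂, h₂⟩ := (contDiffAt_const.add
    (hinv.smul (contDiffAt_id.sub contDiffAt_const)) :
      ContDiffAt ℝ 1 (fun w : ℂ => z + (r / ‖w - z‖) • (w - z)) y).exists_lipschitzOnWith
  obtain ⟨ε, hε, hsub⟩ := Metric.mem_nhds_iff.1 (inter_mem (inter_mem hV₁ hV₂)
    (isOpen_compl_singleton.mem_nhds hy))
  refine ⟨C₁ + 2 * C₂ + 2 * C₁, ball y ε, ball_mem_nhds y hε, ?_⟩
  refine LipschitzOnWith.of_dist_le_mul fun a ha b hb => ?_
  have key : ∀ w ∈ ball y ε, rproj z r w = if r ≤ ‖w - z‖ then z + (w - z)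
      else z + (r / ‖w - z‖) • (w - z) := fun w hw => by
    have hwz : w ≠ z := (hsub hw).2
    split_ifs with hc
    · rcases le_or_gt r 0 with hr | hr
      · rw [rproj, max_eq_left ((div_nonpos_of_nonpos_of_nonneg hr (norm_nonneg _)).trans
          zero_le_one), one_smul]
      · rw [rproj_of_le hr hc, add_sub_cancel]
    · exact rproj_of_lt hwz (not_le.1 hc).le
  have h1 := h₁.dist_le_mul a (hsub ha).1.1 b (hsub hb).1.1
  have h2 := h₂.dist_le_mul a (hsub ha).1.2 b (hsub hb).1.2
  have hC1 : (0 : ℝ) ≤ C₁ := C₁.2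
  have hC2 : (0 : ℝ) ≤ C₂ := C₂.2
  have hd0 : 0 ≤ dist a b := dist_nonneg
  have cross : ∀ v ∈ ball y ε, ∀ w ∈ ball y ε, r ≤ ‖v - z‖ → ‖w - z‖ < r →
      dist (z + (v - z)) (z + (r / ‖w - z‖) • (w - z)) ≤ (C₁ + 2) * dist v w := by
    intro v hv w hw hvr hwr
    have hw0 : 0 < ‖w - z‖ := norm_pos_iff.2 (sub_ne_zero.2 (hsub hw).2)
    have e : dist w (z + (r / ‖w - z‖) • (w - z)) = r - ‖w - z‖ := by
      rw [dist_eq_norm, show w - (z + (r / ‖w - z‖) • (w - z)) = (1 - r / ‖w - z‖) • (w - z) by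
        rw [sub_smul, one_smul]; abel, norm_smul, Real.norm_eq_abs, abs_of_nonpos (by
          rw [sub_nonpos, one_le_div hw0]; exact hwr.le)]
      field_simp
      ring
    have htri : ‖v - z‖ ≤ dist v w + ‖w - z‖ := by
      rw [← dist_eq_norm, ← dist_eq_norm]; exact dist_triangle v w z
    rw [add_sub_cancel]
    have := dist_triangle v w (z + (r / ‖w - z‖) • (w - z))
    nlinarith [dist_nonneg (x := v) (y := w), C₁.2]
  rw [key a ha, key b hb]
  push_cast
  split_ifs with p q q
  · nlinarith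
  · rcases eq_or_ne a b with hab | hab
    · subst hab; exact absurd p q
    have := cross a ha b hb p (not_le.1 q)
    have hC1' : (1 : ℝ) ≤ C₁ := by
      by_contra hlt
      rw [add_sub_cancel, add_sub_cancel] at h1
      nlinarith [dist_pos.2 hab]
    nlinarith
  · rcases eq_or_ne a b with hab | hab
    · subst hab; exact absurd q p
    have := cross b hb a ha q (not_le.1 p)
    rw [dist_comm, dist_comm b a] at this
    have hC1' : (1 : ℝ) ≤ C₁ := by
      by_contra hlt
      rw [add_sub_cancel, add_sub_cancel] at h1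
      nlinarith [dist_pos.2 hab]
    nlinarith
  · nlinarith

theorem lipschitzWith_ramp (z : ℂ) {a r : ℝ} (har : a < r) :
    LipschitzWith (1 / (r - a)).toNNReal (cutRamp z a r) := by
  refine LipschitzWith.of_dist_le_mul fun x y => ?_
  rw [Real.dist_eq, cutRamp, cutRamp, Real.coe_toNNReal _ (one_div_pos.2 (sub_pos.2 har)).le, one_div_mul_eq_div]
  refine (abs_max_sub_max_le_max 0 _ 0 _).trans (max_le (by simp; positivity) ?_)
  refine (abs_min_sub_min_le_max 1 _ 1 _).trans (max_le (by simp; positivity) ?_)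
  rw [← sub_div, abs_div, abs_of_pos (sub_pos.2 har)]
  refine div_le_div_of_nonneg_right ?_ (by linarith)
  rw [sub_sub_sub_cancel_right, dist_eq_norm]
  have := abs_norm_sub_norm_le (x - z) (y - z)
  rwa [sub_sub_sub_cancel_right] at this

theorem norm_radial_sub_le {v v' : ℂ} (hv : v ≠ 0) {r : ℝ} (hr : 0 ≤ r) :
    ‖(r / ‖v'‖) • v' - (r / ‖v‖) • v‖ ≤ 2 * r / ‖v‖ * ‖v' - v‖ := by
  have h0 : 0 < ‖v‖ := norm_pos_iff.2 hv
  have e : (r / ‖v'‖) • v' - (r / ‖v‖) • v =
      (r / ‖v'‖ - r / ‖v‖) • v' + (r / ‖v‖) • (v' - v) := by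
    rw [sub_smul, smul_sub]; abel
  rw [e]
  refine (norm_add_le _ _).trans ?_
  rw [norm_smul, norm_smul, Real.norm_eq_abs, Real.norm_eq_abs, abs_of_nonneg (div_nonneg hr h0.le)]
  have h1 : |r / ‖v'‖ - r / ‖v‖| * ‖v'‖ ≤ r / ‖v‖ * ‖v' - v‖ := by
    rcases eq_or_ne v' 0 with hv' | hv'
    · simp [hv']; positivity
    have h0' : 0 < ‖v'‖ := norm_pos_iff.2 hv'
    rw [show r / ‖v'‖ - r / ‖v‖ = r / (‖v‖ * ‖v'‖) * (‖v‖ - ‖v'‖) by field_simp, abs_mul,
      abs_of_nonneg (by positivity : 0 ≤ r / (‖v‖ * ‖v'‖)), mul_right_comm,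
      show r / (‖v‖ * ‖v'‖) * ‖v'‖ = r / ‖v‖ by field_simp]
    refine mul_le_mul_of_nonneg_left ?_ (by positivity)
    rw [norm_sub_rev v' v]
    exact abs_norm_sub_norm_le v v'
  rw [mul_div_assoc]
  linarith

/-- `J₁`, `J₂`: the integrals of `‖G‖`, `‖G‖²` in the angle over a circle. -/
def circInt (U K : Set ℂ) (G : ℂ → ℂ) (n : ℕ) (z : ℂ) (r : ℝ) : ℝ≥0∞ :=
  ∫⁻ θ in Ioo (-π) π, gnorm U K G (circleMap z r θ) ^ n

/-- On a circle with at most one crossing, `u` oscillates by at most `2 r ∫ ‖G‖`. -/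
theorem osc_circle (h : IsAlmostMin U K u G A M Λ) {z : ℂ} {r J : ℝ} (hr : 0 < r) (hJ : 0 ≤ J)
    (hsub : closedBall z r ⊆ U) {p : ℂ} (hp : p ∈ sphere z r) (hK : K ∩ sphere z r ⊆ {p})
    (hJ1 : circInt U K G 1 z r ≤ ENNReal.ofReal J) :
    ∀ q ∈ sphere z r \ {p}, ∀ q' ∈ sphere z r \ {p}, |u q - u q'| ≤ 2 * r * J := by
  obtain ⟨θ₀, hθ₀, rfl⟩ : ∃ θ₀ ∈ Ioc (-π) π, circleMap z r θ₀ = p := by
    have : p ∈ circleMap z r '' Ioc (-π) (-π + 2 * π) := by
      rw [(periodic_circleMap z r).image_Ioc Real.two_pi_pos, range_circleMap, abs_of_pos hr]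
      exact hp
    rwa [show -π + 2 * π = π by ring] at this
  have hfree : ∀ q ∈ sphere z r \ {circleMap z r θ₀},
      ∃ θ ∈ Ioo θ₀ (θ₀ + 2 * π), circleMap z r θ = q := by
    intro q hq
    have : q ∈ circleMap z r '' Ioc θ₀ (θ₀ + 2 * π) := by
      rw [(periodic_circleMap z r).image_Ioc Real.two_pi_pos, range_circleMap, abs_of_pos hr]
      exact hq.1
    obtain ⟨θ, hθ, rfl⟩ := this
    refine ⟨θ, ⟨hθ.1, lt_of_le_of_ne hθ.2 fun he => hq.2 ?_⟩, rfl⟩
    rw [mem_singleton_iff, he, periodic_circleMap z r θ₀]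
  have hmem : ∀ θ ∈ Ioo θ₀ (θ₀ + 2 * π), circleMap z r θ ∈ U \ K := by
    intro θ hθ
    refine ⟨hsub (sphere_subset_closedBall (circleMap_mem_sphere z hr.le θ)), fun hk => ?_⟩
    have h1 : circleMap z r θ = circleMap z r θ₀ :=
      hK ⟨hk, circleMap_mem_sphere z hr.le θ⟩
    rw [circleMap_eq_circleMap_iff z hr.ne'] at h1
    obtain ⟨n, hn⟩ := h1
    have hn' : θ = θ₀ + n * (2 * π) := by
      have := congrArg Complex.im hn
      simpa using this
    have h2 := hθ.1
    have h3 := hθ.2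
    rw [hn'] at h2 h3
    have hn0 : 0 < n := by
      by_contra hle
      push Not at hle
      have : (n : ℝ) ≤ 0 := by exact_mod_cast hle
      nlinarith [Real.pi_pos]
    have : (1 : ℝ) ≤ n := by exact_mod_cast hn0
    nlinarith [Real.pi_pos]
  have htwo : ∫⁻ θ in Ioo θ₀ (θ₀ + 2 * π), gnorm U K G (circleMap z r θ) ≤
      ENNReal.ofReal (2 * J) := by
    set g := fun θ => gnorm U K G (circleMap z r θ) with hg
    have hJ' : ∫⁻ θ in Ioc (-π) π, g θ ≤ ENNReal.ofReal J := by
      rw [← setLIntegral_congr Ioo_ae_eq_Ioc]; simpa [circInt, hg] using hJ1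
    have hsub2 : Ioo θ₀ (θ₀ + 2 * π) ⊆ Ioc (-π) π ∪ (fun θ => θ + -(2 * π)) ⁻¹' Ioc (-π) π := by
      intro θ hθ
      simp only [mem_union, mem_Ioc, mem_preimage]
      by_cases h1 : θ ≤ π
      · exact Or.inl ⟨hθ₀.1.trans hθ.1, h1⟩
      · exact Or.inr ⟨by linarith, by linarith [hθ.2, hθ₀.2]⟩
    refine ((lintegral_mono_set hsub2).trans (lintegral_union_le _ _ _)).trans ?_
    rw [two_mul J, ENNReal.ofReal_add hJ hJ]
    refine add_le_add hJ' (le_trans (le_of_eq ?_) hJ')
    have hper : ∀ θ, g θ = g (θ + -(2 * π)) := fun θ => by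
      simp only [hg]
      rw [← sub_eq_add_neg, (periodic_circleMap z r).sub_eq]
    rw [lintegral_congr hper]
    exact (measurePreserving_add_right volume (-(2 * π))).setLIntegral_comp_preimage
      measurableSet_Ioc ((measurable_gnorm h).comp (continuous_circleMap z r).measurable)
  have key : ∀ θ θ' : ℝ, θ ∈ Ioo θ₀ (θ₀ + 2 * π) → θ' ∈ Ioo θ₀ (θ₀ + 2 * π) → θ ≤ θ' →
      |u (circleMap z r θ') - u (circleMap z r θ)| ≤ 2 * r * J := by
    intro a b ha hb hab
    have hI : ∀ θ ∈ uIcc a b, circleMap z r θ ∈ U \ K := fun θ hθ => by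
      rw [uIcc_of_le hab] at hθ
      exact hmem θ ⟨ha.1.trans_le hθ.1, hθ.2.trans_lt hb.2⟩
    set D := fun θ => ⟪G (circleMap z r θ), circleMap 0 r θ * Complex.I⟫ with hD
    have hcont : ContinuousOn D (uIcc a b) :=
      (h.contGrad.comp (continuous_circleMap z r).continuousOn hI).inner
        ((continuous_circleMap 0 r).mul continuous_const).continuousOn
    have hint := intervalIntegral.integral_eq_sub_of_hasDerivAt
      (f := fun θ => u (circleMap z r θ)) (f' := D)
      (fun θ hθ => (h.hasGrad _ (hI θ hθ)).comp_hasDerivAt θ (hasDerivAt_circleMap z r θ))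
      hcont.intervalIntegrable
    rw [← hint, intervalIntegral.integral_of_le hab, ← ENNReal.ofReal_le_ofReal_iff (by positivity),
      ← Real.norm_eq_abs, ofReal_norm]
    refine (enorm_integral_le_lintegral_enorm _).trans ?_
    have hle : ∀ θ ∈ Ioc a b, ‖D θ‖ₑ ≤ ENNReal.ofReal r * gnorm U K G (circleMap z r θ) := by
      intro θ hθ
      rw [gnorm, indicator_of_mem (hI θ (by rw [uIcc_of_le hab]; exact Ioc_subset_Icc_self hθ)),
        ← ofReal_norm, ← ofReal_norm, ← ENNReal.ofReal_mul hr.le]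
      refine ENNReal.ofReal_le_ofReal ((norm_inner_le_norm _ _).trans (le_of_eq ?_))
      rw [norm_mul, Complex.norm_I, mul_one, norm_circleMap_zero, abs_of_pos hr, mul_comm]
    refine (setLIntegral_mono' measurableSet_Ioc hle).trans ?_
    rw [lintegral_const_mul' _ _ ENNReal.ofReal_ne_top,
      show 2 * r * J = r * (2 * J) by ring, ENNReal.ofReal_mul hr.le]
    gcongr
    exact (lintegral_mono_set (show Ioc a b ⊆ Ioo θ₀ (θ₀ + 2 * π) from
      fun θ hθ => ⟨ha.1.trans hθ.1, hθ.2.trans_lt hb.2⟩)).trans htwo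
  intro q hq q' hq'
  obtain ⟨a, ha, rfl⟩ := hfree q hq
  obtain ⟨b, hb, rfl⟩ := hfree q' hq'
  rcases le_total a b with hab | hab
  · rw [abs_sub_comm]; exact key a b ha hb hab
  · exact key b a hb ha hab

/-- **The cut competitor.** -/
theorem cut_bound (h : IsAlmostMin U K u G A M Λ) {z : ℂ} {a r J₁ J₂ : ℝ} (ha : r / 2 ≤ a)
    (har : a < r) (hsub : closedBall z r ⊆ U) {p : ℂ} (hp : p ∈ sphere z r)
    (hK : K ∩ sphere z r ⊆ {p}) (hJ₁0 : 0 ≤ J₁) (hJ₂0 : 0 ≤ J₂)
    (hJ₁ : circInt U K G 1 z r ≤ ENNReal.ofReal J₁)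
    (hJ₂ : circInt U K G 2 z r ≤ ENNReal.ofReal J₂) :
    μH[1] (K ∩ closedBall z r) ≤ ENNReal.ofReal
      (64 * r * (r * J₁) ^ 2 / (r - a) + 32 * (r - a) * r * J₂ + (r - a) + Λ * r ^ 2) := by
  classical
  have hd : 0 < r - a := sub_pos.2 har
  have hr : 0 < r := by
    rcases le_or_gt r 0 with hr | hr
    · linarith
    · exact hr
  have ha0 : 0 < a := lt_of_lt_of_le (by linarith) ha
  set S : Set ℂ := (fun s : ℝ => z + s • (p - z)) '' Icc (a / r) 1 with hS
  have hnp : ‖p - z‖ = r := mem_sphere_iff_norm.1 hp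
  have hSball : S ⊆ closedBall z r := by
    rintro _ ⟨s, hs, rfl⟩
    rw [mem_closedBall, dist_eq_norm, add_sub_cancel_left, norm_smul, hnp, Real.norm_eq_abs,
      abs_of_nonneg ((div_pos ha0 hr).le.trans hs.1)]
    exact mul_le_of_le_one_left hr.le hs.2
  have hSc : IsCompact S := isCompact_Icc.image (by fun_prop)
  have hpS : p ∈ S := ⟨1, ⟨(div_le_one hr).2 har.le, le_rfl⟩, by simp⟩
  have hSlen : μH[1] S ≤ ENNReal.ofReal (r - a) := by
    have hl : LipschitzWith r.toNNReal fun s : ℝ => z + s • (p - z) :=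
      LipschitzWith.of_dist_le_mul fun s s' => by
        rw [dist_add_left, dist_eq_norm, ← sub_smul, norm_smul, hnp, Real.dist_eq, Real.coe_toNNReal _ hr.le,
          Real.norm_eq_abs, mul_comm]
    refine (hl.hausdorffMeasure_image_le zero_le_one _).trans (le_of_eq ?_)
    rw [ENNReal.rpow_one, hausdorffMeasure_real, Real.volume_Icc, ← ENNReal.ofReal_coe_nnreal,
      ← ENNReal.ofReal_mul (NNReal.coe_nonneg _), Real.coe_toNNReal _ hr.le]
    congr 1
    field_simp
  set L : Set ℂ := (K \ ball z r) ∪ S with hL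
  have hLU : L ⊆ U := union_subset (fun y hy => h.subset hy.1) (hSball.trans hsub)
  have hLopen : IsOpen (U \ L) := by
    have : U \ L = ((U \ K) ∪ ball z r) \ S := by
      ext y
      constructor
      · rintro ⟨hU, hy⟩
        simp only [hL, mem_union, not_or] at hy
        refine ⟨?_, hy.2⟩
        by_cases hb : y ∈ ball z r
        · exact Or.inr hb
        · exact Or.inl ⟨hU, fun hk => hy.1 ⟨hk, hb⟩⟩
      · rintro ⟨hy, hyS⟩
        refine ⟨hy.elim (fun h' => h'.1) fun h' => hsub (ball_subset_closedBall h'), ?_⟩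
        rintro (⟨hk, hb⟩ | hs)
        · exact hy.elim (fun h' => h'.2 hk) hb
        · exact hyS hs
    rw [this]
    exact (h.isOpen_compl.union isOpen_ball).sdiff hSc.isClosed
  have hLK : L \ closedBall z r = K \ closedBall z r := by
    ext y
    constructor
    · rintro ⟨hy | hy, hc⟩
      · exact ⟨hy.1, hc⟩
      · exact absurd (hSball hy) hc
    · exact fun hy => ⟨Or.inl ⟨hy.1, fun hb => hy.2 (ball_subset_closedBall hb)⟩, hy.2⟩
  have hproj : ∀ y ∉ L, y ∈ U → a ≤ ‖y - z‖ → rproj z r y ∈ U \ K ∧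
      (‖y - z‖ < r → rproj z r y ∈ sphere z r \ {p}) := by
    intro y hy hyU hya
    rcases le_or_gt r ‖y - z‖ with hry | hry
    · rw [rproj_of_le hr hry]
      exact ⟨⟨hyU, fun hk => hy (Or.inl ⟨hk, fun hb => hry.not_gt (by
        rwa [mem_ball, dist_eq_norm] at hb)⟩)⟩, fun h' => absurd hry h'.not_ge⟩
    have hne : y ≠ z := fun he => by rw [he, sub_self, norm_zero] at hya; linarith
    have hy0 : 0 < ‖y - z‖ := norm_pos_iff.2 (sub_ne_zero.2 hne)
    have hmem : rproj z r y ∈ sphere z r := by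
      rw [rproj_of_lt hne hry.le, mem_sphere_iff_norm, add_sub_cancel_left, norm_smul,
        Real.norm_eq_abs, abs_of_pos (div_pos hr hy0), div_mul_cancel₀ _ hy0.ne']
    have hnp' : rproj z r y ≠ p := fun he => by
      refine hy (Or.inr ⟨‖y - z‖ / r, ⟨by gcongr, (div_le_one hr).2 hry.le⟩, ?_⟩)
      rw [← he, rproj_of_lt hne hry.le]
      simp only [add_sub_cancel_left, smul_smul]
      rw [show ‖y - z‖ / r * (r / ‖y - z‖) = 1 by field_simp, one_smul, add_sub_cancel]
    exact ⟨⟨hsub (sphere_subset_closedBall hmem), fun hk => hnp' (hK ⟨hk, hmem⟩)⟩,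
      fun _ => ⟨hmem, hnp'⟩⟩
  obtain ⟨q₀, hq₀⟩ : (sphere z r \ {p}).Nonempty := by
    refine ⟨z + z - p, ?_, fun he => ?_⟩
    · rw [mem_sphere_iff_norm, show z + z - p - z = -(p - z) by ring, norm_neg, hnp]
    · rw [mem_singleton_iff] at he
      have : p - z = 0 := by linear_combination (-1 / 2 : ℂ) * he
      rw [this, norm_zero] at hnp
      linarith
  set m := u q₀ with hm
  set w : ℂ → ℝ := fun y => m + cutRamp z a r y * (u (rproj z r y) - m) with hw
  have hramp0 : ∀ y, ‖y - z‖ ≤ a → cutRamp z a r y = 0 := fun y hy =>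
    max_eq_left ((min_le_right _ _).trans
      (div_nonpos_of_nonpos_of_nonneg (by linarith) hd.le))
  have hramp1 : ∀ y, r ≤ ‖y - z‖ → cutRamp z a r y = 1 := fun y hy => by
    rw [cutRamp, min_eq_left (by rw [le_div_iff₀ hd]; linarith), max_eq_right zero_le_one]
  have huLL : LocallyLipschitzOn (U \ K) u := fun y hy => by
    have hcd : ContDiffOn ℝ 1 u (U \ K) := by
      refine (contDiffOn_succ_iff_fderiv_of_isOpen (n := 0) h.isOpen_compl).2
        ⟨fun x hx => (h.hasGrad x hx).differentiableAt.differentiableWithinAt,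
          fun h' => absurd h' (by simp), ?_⟩
      rw [contDiffOn_zero]
      exact ((innerSL ℝ).continuous.comp_continuousOn h.contGrad).congr
        fun x hx => (h.hasGrad x hx).fderiv
    obtain ⟨C, T, hT, hC⟩ := (hcd.contDiffAt (h.isOpen_compl.mem_nhds hy)).exists_lipschitzOnWith
    exact ⟨C, T, mem_nhdsWithin_of_mem_nhds hT, hC⟩
  have hwLL : LocallyLipschitzOn (U \ L) w := by
    intro y hy
    rcases lt_or_ge ‖y - z‖ a with hya | hya
    · refine ⟨0, {x | ‖x - z‖ < a}, mem_nhdsWithin_of_mem_nhds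
        ((isOpen_lt (by fun_prop) continuous_const).mem_nhds hya), ?_⟩
      refine LipschitzOnWith.of_dist_le_mul fun x hx x' hx' => ?_
      simp [hw, hramp0 x (le_of_lt hx), hramp0 x' (le_of_lt hx')]
    have hne : y ≠ z := fun he => by rw [he, sub_self, norm_zero] at hya; linarith
    obtain ⟨C₁, V₁, hV₁, h₁⟩ := locallyLipschitzOn_rproj z r hne
    have hq := (hproj y hy.2 hy.1 hya).1
    obtain ⟨C₂, V₂, hV₂, h₂⟩ := huLL hq
    rw [h.isOpen_compl.nhdsWithin_eq hq] at hV₂
    have hcont : ContinuousAt (rproj z r) y :=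
      (continuousOn_rproj z r).continuousAt (isOpen_compl_singleton.mem_nhds hne)
    set W := V₁ ∩ rproj z r ⁻¹' (V₂ ∩ {q | |u q - u (rproj z r y)| < 1}) with hW
    have hW0 : W ∈ 𝓝 y := by
      refine inter_mem hV₁ (hcont (inter_mem hV₂ ?_))
      have : ContinuousAt (fun q => |u q - u (rproj z r y)|) (rproj z r y) :=
        ((h.hasGrad _ hq).continuousAt.sub continuousAt_const).abs
      exact this.eventually_lt_const (by simp)
    refine ⟨(1 / (r - a)).toNNReal * (|u (rproj z r y) - m| + 1).toNNReal +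
      C₂ * C₁, W, mem_nhdsWithin_of_mem_nhds hW0, ?_⟩
    refine LipschitzOnWith.of_dist_le_mul fun x hx x' hx' => ?_
    have e1 := (lipschitzWith_ramp z har).dist_le_mul x x'
    have e2 := h₂.dist_le_mul _ hx.2.1 _ hx'.2.1
    have e3 := h₁.dist_le_mul x hx.1 x' hx'.1
    have e4 : |u (rproj z r x) - m| ≤ |u (rproj z r y) - m| + 1 :=
      le_trans (abs_sub_le _ (u (rproj z r y)) _) (by
        linarith [show |u (rproj z r x) - u (rproj z r y)| < 1 from hx.2.2])
    rw [Real.dist_eq] at e1 e2 ⊢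
    push_cast
    rw [Real.coe_toNNReal _ (one_div_pos.2 hd).le] at e1
    have hr0 : |cutRamp z a r x'| ≤ 1 := by
      rw [abs_of_nonneg (le_max_left 0 _)]
      exact max_le zero_le_one (min_le_left _ _)
    calc |w x - w x'| = |(cutRamp z a r x - cutRamp z a r x') * (u (rproj z r x) - m) +
          cutRamp z a r x' * (u (rproj z r x) - u (rproj z r x'))| := by
          simp only [hw]; congr 1; ring
      _ ≤ |cutRamp z a r x - cutRamp z a r x'| * |u (rproj z r x) - m| +
          |cutRamp z a r x'| * |u (rproj z r x) - u (rproj z r x')| := by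
          rw [← abs_mul, ← abs_mul]; exact abs_add_le _ _
      _ ≤ 1 / (r - a) * dist x x' * (|u (rproj z r y) - m| + 1) + 1 * (C₂ * (C₁ * dist x x')) := by
          gcongr
          exact e2.trans (mul_le_mul_of_nonneg_left e3 C₂.2)
      _ = _ := by
          rw [Real.coe_toNNReal _ (one_div_pos.2 hd).le, Real.coe_toNNReal _ (by positivity)]
          ring
  have hout : ∀ᵐ x ∂volume.restrict (U \ closedBall z r), w x = u x := by
    filter_upwards [ae_restrict_mem (h.isOpen.measurableSet.diff measurableSet_closedBall)] with x hx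
    have hx' : r ≤ ‖x - z‖ := by
      rw [← dist_eq_norm]; exact (not_le.1 fun h' => hx.2 (mem_closedBall.2 h')).le
    simp [hw, hramp1 x hx', rproj_of_le hr hx']
  have hcomp := h.almostMin z r hr hsub L w (gradOf w) hLU hLopen hLK
    (isSobolevOn_of_locallyLipschitzOn hLopen hwLL) hout
  refine (le_trans le_add_self hcomp).trans ?_
  set g : ℂ → ℝ≥0∞ := fun y => {y | a ≤ ‖y - z‖}.indicator
    (fun y => ENNReal.ofReal (8 * (r * J₁) ^ 2 / (r - a) ^ 2) +
      32 * gnorm U K G (rproj z r y) ^ 2) y with hg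
  have hgrad : ∫⁻ y in closedBall z r \ L, ‖gradOf w y‖ₑ ^ 2 ≤ ∫⁻ y in ball z r, g y := by
    have hnull : ∀ᵐ y, y ∉ sphere z r ∧ y ∉ sphere z a := by
      refine eventually_and.2 ⟨?_, ?_⟩ <;>
        exact measure_eq_zero_iff_ae_notMem.1 (Measure.addHaar_sphere volume z _)
    have hsub' : closedBall z r \ L ⊆ (ball z r \ L) ∪ sphere z r := fun y hy => by
      rcases (mem_closedBall.1 hy.1).lt_or_eq with h' | h'
      exacts [Or.inl ⟨h', hy.2⟩, Or.inr h']
    refine (lintegral_mono_set hsub').trans ((lintegral_union_le _ _ _).trans ?_)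
    rw [setLIntegral_measure_zero _ _ (Measure.addHaar_sphere volume z r), add_zero]
    refine le_trans ?_ (lintegral_mono_set (sdiff_subset (t := L)))
    have hm' : MeasurableSet (ball z r \ L) := by
      have : ball z r \ L = ball z r ∩ (U \ L) := ext fun y =>
        ⟨fun hy => ⟨hy.1, hsub (ball_subset_closedBall hy.1), hy.2⟩, fun hy => ⟨hy.1, hy.2.2⟩⟩
      rw [this]; exact measurableSet_ball.inter hLopen.measurableSet
    refine lintegral_mono_ae ?_
    filter_upwards [ae_restrict_mem hm', ae_restrict_of_ae hnull] with y hy hyn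
    have hyr : ‖y - z‖ < r := by rw [← dist_eq_norm]; exact hy.1
    rcases lt_or_ge ‖y - z‖ a with hya | hya
    · have : w =ᶠ[𝓝 y] fun _ => m := by
        filter_upwards [(isOpen_lt (continuous_id.sub continuous_const).norm
          continuous_const).mem_nhds hya] with x hx
        simp [hw, hramp0 x (le_of_lt hx)]
      have h0 : gradOf w y = 0 := by
        simp [gradOf, this.fderiv_eq, Complex.ext_iff]
      simp [h0]
    have hya' : a < ‖y - z‖ :=
      lt_of_le_of_ne hya fun he => hyn.2 (mem_sphere_iff_norm.2 he.symm)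
    have hne : y ≠ z := fun he => by rw [he, sub_self, norm_zero] at hya; linarith
    obtain ⟨hq, hq'⟩ := hproj y hy.2 (hsub (ball_subset_closedBall hy.1)) hya
    set π' : ℂ → ℂ := fun x => z + (r / ‖x - z‖) • (x - z) with hπ
    have hev : w =ᶠ[𝓝 y] fun x => m + (‖x - z‖ - a) / (r - a) * (u (π' x) - m) := by
      filter_upwards [(isOpen_Ioo.preimage (continuous_id.sub continuous_const).norm).mem_nhds
        (⟨hya', hyr⟩ : ‖y - z‖ ∈ Ioo a r)] with x hx
      obtain ⟨h1, h2⟩ : a < ‖x - z‖ ∧ ‖x - z‖ < r := hx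
      have hxne : x ≠ z := fun he => by rw [he, sub_self, norm_zero] at h1; linarith
      simp only [hw, hπ, rproj_of_lt hxne h2.le]
      congr 2
      rw [cutRamp, min_eq_right (by rw [div_le_one hd]; linarith),
        max_eq_right (div_nonneg (by linarith) hd.le)]
    have hπy : π' y = rproj z r y := (rproj_of_lt hne hyr.le).symm
    have hdn : DifferentiableAt ℝ (fun x => ‖x - z‖) y :=
      DifferentiableAt.norm ℝ ((differentiableAt_id (𝕜 := ℝ)).sub_const z) (sub_ne_zero.2 hne)
    have hy0 : 0 < ‖y - z‖ := norm_pos_iff.2 (sub_ne_zero.2 hne)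
    have hdπ : DifferentiableAt ℝ π' y :=
      ((show DifferentiableAt ℝ (fun x => r / ‖x - z‖) y from
        (differentiableAt_const r).mul (hdn.inv hy0.ne') |>.congr_of_eventuallyEq
          (Eventually.of_forall fun x => div_eq_mul_inv _ _)).smul
        (differentiableAt_id.sub_const z)).const_add z
    obtain ⟨Pπ, hPπ⟩ : ∃ T, HasFDerivAt π' T y := ⟨_, hdπ.hasFDerivAt⟩
    obtain ⟨Pn, hPn⟩ : ∃ T, HasFDerivAt (fun x => ‖x - z‖) T y := ⟨_, hdn.hasFDerivAt⟩
    have hnπ : ‖Pπ‖ ≤ 4 := by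
      refine hPπ.le_of_lip' (by norm_num) (Eventually.of_forall fun x => ?_)
      simp only [hπ, add_sub_add_left_eq_sub]
      refine (norm_radial_sub_le (sub_ne_zero.2 hne) hr.le).trans ?_
      rw [sub_sub_sub_cancel_right]
      refine mul_le_mul_of_nonneg_right ?_ (norm_nonneg _)
      rw [div_le_iff₀ hy0]; linarith
    have hnn : ‖Pn‖ ≤ 1 := by
      refine hPn.le_of_lip' zero_le_one (Eventually.of_forall fun x => ?_)
      rw [one_mul, Real.norm_eq_abs, show x - y = (x - z) - (y - z) by ring]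
      exact abs_norm_sub_norm_le _ _
    have hu' : HasFDerivAt u (innerSL ℝ (G (rproj z r y))) (π' y) := by
      rw [hπy]; exact h.hasGrad _ hq
    have hder : HasFDerivAt w
        ((((‖y - z‖ - a) / (r - a)) • (innerSL ℝ (G (rproj z r y))).comp Pπ) +
          (u (π' y) - m) • ((r - a)⁻¹ • Pn)) y := by
      refine HasFDerivAt.congr_of_eventuallyEq ?_ hev
      have hc : HasFDerivAt (fun x => (‖x - z‖ - a) / (r - a)) ((r - a)⁻¹ • Pn) y := by
        simpa [div_eq_inv_mul] using (hPn.sub_const a).const_mul ((r - a)⁻¹)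
      exact (hc.mul ((hu'.comp y hPπ).sub_const m)).const_add m
    have hnorm : ‖gradOf w y‖ ≤ 4 * ‖G (rproj z r y)‖ + 2 * r * J₁ / (r - a) := by
      rw [← innerSL_apply_norm (𝕜 := ℝ), innerSL_gradOf, hder.fderiv]
      refine (norm_add_le _ _).trans (add_le_add ?_ ?_)
      · rw [norm_smul, Real.norm_eq_abs]
        refine (mul_le_mul ?_ (ContinuousLinearMap.opNorm_comp_le _ _) (norm_nonneg _)
          zero_le_one).trans ?_
        · rw [abs_of_nonneg (div_nonneg (by linarith) hd.le), div_le_one hd]; linarith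
        rw [one_mul, innerSL_apply_norm, mul_comm]
        exact mul_le_mul_of_nonneg_right hnπ (norm_nonneg _)
      · rw [norm_smul, norm_smul, Real.norm_eq_abs, hπy, Real.norm_eq_abs, abs_inv, abs_of_pos hd,
          ← mul_assoc]
        refine (mul_le_of_le_one_right (by positivity) hnn).trans ?_
        rw [← div_eq_mul_inv]
        gcongr
        exact osc_circle h hr hJ₁0 hsub hp hK hJ₁ _ (hq' hyr) _ hq₀
    simp only [hg]
    rw [indicator_of_mem (show y ∈ {y : ℂ | a ≤ ‖y - z‖} from hya), gnorm, indicator_of_mem hq]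
    rw [← ofReal_norm, ← ofReal_norm, ← ENNReal.ofReal_pow (norm_nonneg _),
      ← ENNReal.ofReal_pow (norm_nonneg _), show (32 : ℝ≥0∞) = ENNReal.ofReal 32 by simp,
      ← ENNReal.ofReal_mul (by norm_num), ← ENNReal.ofReal_add (by positivity) (by positivity)]
    refine ENNReal.ofReal_le_ofReal ((pow_le_pow_left₀ (norm_nonneg _) hnorm 2).trans ?_)
    rw [show 8 * (r * J₁) ^ 2 / (r - a) ^ 2 = 2 * (2 * r * J₁ / (r - a)) ^ 2 by
      rw [div_pow]; ring]
    nlinarith [sq_nonneg (4 * ‖G (rproj z r y)‖ - 2 * r * J₁ / (r - a))]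
  have hgm : Measurable g := by
    refine (measurable_const.add ((((measurable_gnorm h).comp
      (measurable_rproj z r)).pow_const 2).const_mul _)).indicator ?_
    exact (isClosed_le continuous_const (by fun_prop)).measurableSet
  have hint : ∫⁻ y in ball z r, g y ≤
      ENNReal.ofReal (64 * r * (r * J₁) ^ 2 / (r - a) + 32 * (r - a) * r * J₂) := by
    rw [lintegral_ball_polar hgm.aemeasurable.restrict]
    calc ∫⁻ s in Ioo 0 r, ENNReal.ofReal s * ∫⁻ θ in Ioo (-π) π, g (circleMap z s θ)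
        ≤ ∫⁻ s in Ioo 0 r, (Icc a r).indicator (fun _ => ENNReal.ofReal r *
            (ENNReal.ofReal (8 * (r * J₁) ^ 2 / (r - a) ^ 2 * (2 * π)) +
              32 * ENNReal.ofReal J₂)) s := by
          refine setLIntegral_mono' measurableSet_Ioo fun s hs => ?_
          have hn : ∀ θ, ‖circleMap z s θ - z‖ = s := fun θ => by
            rw [circleMap_sub_center, norm_circleMap_zero, abs_of_pos hs.1]
          by_cases hsa : a ≤ s
          · rw [indicator_of_mem (show s ∈ Icc a r from ⟨hsa, hs.2.le⟩)]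
            refine mul_le_mul' (ENNReal.ofReal_le_ofReal hs.2.le) ?_
            have e : ∀ θ, g (circleMap z s θ) = ENNReal.ofReal (8 * (r * J₁) ^ 2 / (r - a) ^ 2) +
                32 * gnorm U K G (circleMap z r θ) ^ 2 := fun θ => by
              simp only [hg]
              rw [indicator_of_mem (show circleMap z s θ ∈ {y : ℂ | a ≤ ‖y - z‖} by
                simp only [mem_ofPred_eq]; rw [hn]; exact hsa), rproj_circleMap hs.1 hs.2.le]
            simp only [e]
            rw [lintegral_add_left measurable_const, setLIntegral_const,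
              lintegral_const_mul' _ _ (by simp), Real.volume_Ioo,
              ← ENNReal.ofReal_mul (by positivity), show π - -π = 2 * π by ring]
            exact add_le_add le_rfl (mul_le_mul_right hJ₂ _)
          · have e : ∀ θ, g (circleMap z s θ) = 0 := fun θ => by
              simp only [hg]
              exact indicator_of_notMem (fun h' => hsa (by
                simp only [mem_ofPred_eq, hn] at h'; exact h')) _
            simp [e]
      _ ≤ _ := by
          refine (setLIntegral_le_lintegral _ _).trans ?_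
          rw [lintegral_indicator measurableSet_Icc, setLIntegral_const, Real.volume_Icc,
            show (32 : ℝ≥0∞) = ENNReal.ofReal 32 by simp, ← ENNReal.ofReal_mul (by norm_num),
            ← ENNReal.ofReal_add (by positivity) (by positivity), ← ENNReal.ofReal_mul hr.le,
            ← ENNReal.ofReal_mul (by positivity)]
          refine ENNReal.ofReal_le_ofReal ?_
          have e : r * (8 * (r * J₁) ^ 2 / (r - a) ^ 2 * (2 * π) + 32 * J₂) * (r - a) =
              16 * π * r * (r * J₁) ^ 2 / (r - a) + 32 * (r - a) * r * J₂ := by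
            field_simp; ring
          rw [e]
          gcongr
          linarith [Real.pi_lt_four]
  have hlen : μH[1] (L ∩ closedBall z r) ≤ ENNReal.ofReal (r - a) := by
    refine (measure_mono ?_).trans hSlen
    rintro y ⟨⟨hk, hb⟩ | hs, hc⟩
    · have : y ∈ sphere z r := le_antisymm (mem_closedBall.1 hc) (not_lt.1 hb)
      rw [hK ⟨hk, this⟩]; exact hpS
    · exact hs
  have hpos : 0 ≤ 64 * r * (r * J₁) ^ 2 / (r - a) + 32 * (r - a) * r * J₂ := by positivity
  rw [ENNReal.ofReal_add (by linarith) (mul_nonneg (Λ_nonneg h) (sq_nonneg r)),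
    ENNReal.ofReal_add hpos hd.le]
  exact add_le_add (add_le_add (hgrad.trans hint) hlen) le_rfl

end Vale.Agent.P128.Bridge
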