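import Vale.Agent.P128.Bridge.Sobolev
import Vale.Agent.P128.Bridge.Spec

/-!
# P128 bridge B2a, part 1: a scale at which the gradient is small in `L¹`

Averaged over the centres in `K`, only boundedly many dyadic scales see the part of the gradient
at distance comparable to the scale; the part near `K` lives on a set of small area.
-/

open MeasureTheory Set Metric Filter
open scoped ENNReal NNReal Topology Real

noncomputable section

namespace Vale.Agent.P128.Bridge

/-- The size of the gradient, extended by zero to the set. -/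
def gnorm (U K : Set ℂ) (G : ℂ → ℂ) : ℂ → ℝ≥0∞ := (U \ K).indicator fun y => ‖G y‖ₑ

variable {U K : Set ℂ} {u : ℂ → ℝ} {G : ℂ → ℂ} {A M Λ : ℝ}

theorem measurable_gnorm (h : IsAlmostMin U K u G A M Λ) : Measurable (gnorm U K G) := by
  classical
  rw [gnorm, ← piecewise_eq_indicator]
  exact ContinuousOn.measurable_piecewise h.contGrad.enorm continuousOn_const
    h.isOpen_compl.measurableSet

theorem lintegral_gnorm_sq_le (h : IsAlmostMin U K u G A M Λ) {S : Set ℂ}
    (_hS : MeasurableSet S) : ∫⁻ y in S, gnorm U K G y ^ 2 ≤ weakEnergy K G S := by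
  have h1 : ∀ y, gnorm U K G y ^ 2 = (U \ K).indicator (fun y => ‖G y‖ₑ ^ 2) y := fun y => by
    by_cases hy : y ∈ U \ K <;> simp [gnorm, hy]
  simp only [h1]
  rw [lintegral_indicator h.isOpen_compl.measurableSet,
    Measure.restrict_restrict h.isOpen_compl.measurableSet]
  have hss : (U \ K) ∩ S ⊆ S \ K := fun y hy => ⟨hy.2, hy.1.2⟩
  exact le_trans (lintegral_mono_set hss) le_self_add

/-- The upper bound with the constant `8`. -/
theorem energy_le (hU : UpperSpec) (h : IsAlmostMin U K u G A M Λ) (z : ℂ) {s : ℝ} (hs : 0 < s)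
    (hsub : closedBall z s ⊆ U) (hΛ : Λ * s ≤ 1) :
    weakEnergy K G (closedBall z s) ≤ ENNReal.ofReal (8 * s) := by
  refine (hU U K u G A M Λ h z s hs hsub).trans (ENNReal.ofReal_le_ofReal ?_)
  nlinarith [Real.pi_lt_d2]

theorem length_le' (hU : UpperSpec) (h : IsAlmostMin U K u G A M Λ) (z : ℂ) {s : ℝ} (hs : 0 < s)
    (hsub : closedBall z s ⊆ U) (hΛ : Λ * s ≤ 1) :
    μH[1] (K ∩ closedBall z s) ≤ ENNReal.ofReal (8 * s) :=
  le_trans le_add_self (energy_le hU h z hs hsub hΛ)

theorem Λ_nonneg (h : IsAlmostMin U K u G A M Λ) : 0 ≤ Λ :=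
  (mul_nonneg h.A_nonneg h.M_nonneg).trans h.AM_le

theorem measurableSet_inter_closedBall (h : IsAlmostMin U K u G A M Λ) {z : ℂ} {s : ℝ}
    (hsub : closedBall z s ⊆ U) : MeasurableSet (K ∩ closedBall z s) := by
  have : K ∩ closedBall z s = closedBall z s \ (U \ K) :=
    ext fun y => ⟨fun hy => ⟨hy.2, fun h' => h'.2 hy.1⟩,
      fun hy => ⟨by_contra fun h' => hy.2 ⟨hsub hy.1, h'⟩, hy.1⟩⟩
  rw [this]
  exact measurableSet_closedBall.diff h.isOpen_compl.measurableSet

/-- The area of a thin neighbourhood of the set. -/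
theorem area_le (hU : UpperSpec) {η δ : ℝ} (hη : 0 < η)
    (hlow : ∀ a ∈ K, ∀ s : ℝ, 0 < s → closedBall a s ⊆ U → Λ * s ≤ δ →
      ENNReal.ofReal (η * s) ≤ μH[1] (K ∩ closedBall a s))
    (h : IsAlmostMin U K u G A M Λ) {z : ℂ} {ρ d : ℝ} (hd : 0 < d) (hdρ : d ≤ ρ)
    (hsub : closedBall z (3 * ρ) ⊆ U) (hne : K.Nonempty) (hΛ1 : Λ * (3 * ρ) ≤ 1)
    (hΛd : Λ * d ≤ δ) :
    volume (ball z ρ ∩ {y | infDist y K < d}) ≤ ENNReal.ofReal (24 * ρ / (η * d) * (36 * d ^ 2)) := by
  classical
  set P : ℕ → Prop := fun n => ∃ F : Finset ℂ, F.card = n ∧ (∀ a ∈ F, a ∈ K ∧ dist a z ≤ 2 * ρ) ∧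
    ∀ a ∈ F, ∀ b ∈ F, a ≠ b → 2 * d < dist a b with hP
  have hbound : ∀ n, P n → (n : ℝ) * (η * d) ≤ 24 * ρ := by
    rintro n ⟨F, rfl, hF, hsep⟩
    have hin : ∀ a ∈ F, closedBall a d ⊆ closedBall z (3 * ρ) := fun a ha =>
      closedBall_subset_closedBall' (by linarith [(hF a ha).2])
    have hdisj : (F : Set ℂ).PairwiseDisjoint fun a => K ∩ closedBall a d := fun a ha b hb hab =>
      (closedBall_disjoint_closedBall (by linarith [hsep a ha b hb hab])).mono
        inter_subset_right inter_subset_right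
    have hmeas : ∀ a ∈ F, MeasurableSet (K ∩ closedBall a d) := fun a ha =>
      measurableSet_inter_closedBall h ((hin a ha).trans hsub)
    have h1 : ∑ _a ∈ F, ENNReal.ofReal (η * d) ≤ ENNReal.ofReal (8 * (3 * ρ)) := by
      calc ∑ _a ∈ F, ENNReal.ofReal (η * d) ≤ ∑ a ∈ F, μH[1] (K ∩ closedBall a d) :=
            Finset.sum_le_sum fun a ha => hlow a (hF a ha).1 d hd ((hin a ha).trans hsub) hΛd
        _ = μH[1] (⋃ a ∈ F, K ∩ closedBall a d) := (measure_biUnion_finset hdisj hmeas).symm
        _ ≤ μH[1] (K ∩ closedBall z (3 * ρ)) :=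
            measure_mono (iUnion₂_subset fun a ha => inter_subset_inter_right _ (hin a ha))
        _ ≤ _ := length_le' hU h z (by linarith) hsub hΛ1
    rw [← ENNReal.ofReal_sum_of_nonneg fun _ _ => by positivity,
      ENNReal.ofReal_le_ofReal_iff (by linarith), Finset.sum_const, nsmul_eq_mul] at h1
    linarith
  obtain ⟨N, hN⟩ := exists_nat_ge (24 * ρ / (η * d))
  have hbN : ∀ n, P n → n ≤ N := fun n hn => by
    have : (n : ℝ) ≤ 24 * ρ / (η * d) := by
      rw [le_div_iff₀ (by positivity)]; exact hbound n hn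
    exact_mod_cast this.trans hN
  have h0 : P 0 := ⟨∅, rfl, by simp, by simp⟩
  obtain ⟨F, hFc, hF, hsep⟩ : P (Nat.findGreatest P N) := Nat.findGreatest_spec (Nat.zero_le N) h0
  have hcover : ∀ a ∈ K, dist a z ≤ 2 * ρ → ∃ b ∈ F, dist a b ≤ 2 * d := by
    intro a ha haz
    by_contra hno
    push Not at hno
    have haF : a ∉ F := fun h' => by linarith [hno a h', dist_self a]
    have hP' : P (F.card + 1) := by
      refine ⟨insert a F, Finset.card_insert_of_notMem haF, ?_, ?_⟩
      · intro b hb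
        rcases Finset.mem_insert.1 hb with rfl | hb
        exacts [⟨ha, haz⟩, hF b hb]
      · intro b hb c hc hbc
        rcases Finset.mem_insert.1 hb with hb | hb <;> rcases Finset.mem_insert.1 hc with hc | hc
        · exact absurd (hb.trans hc.symm) hbc
        · rw [hb]; exact hno c hc
        · rw [hc, dist_comm]; exact hno b hb
        · exact hsep b hb c hc hbc
    have := Nat.le_findGreatest (P := P) (hbN _ hP') hP'
    omega
  calc volume (ball z ρ ∩ {y | infDist y K < d})
      ≤ volume (⋃ b ∈ F, closedBall b (3 * d)) := by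
        refine measure_mono fun y hy => ?_
        obtain ⟨a, ha, hya⟩ := (infDist_lt_iff hne).1 hy.2
        obtain ⟨b, hb, hab⟩ := hcover a ha (by
          linarith [dist_triangle a y z, dist_comm a y, mem_ball.1 hy.1])
        exact mem_iUnion₂.2 ⟨b, hb, mem_closedBall.2 (by linarith [dist_triangle y a b])⟩
    _ ≤ ∑ b ∈ F, volume (closedBall b (3 * d)) := measure_biUnion_finset_le F _
    _ ≤ ∑ _b ∈ F, ENNReal.ofReal (36 * d ^ 2) := by
        refine Finset.sum_le_sum fun b _ => ?_
        rw [Complex.volume_closedBall, ← ENNReal.ofReal_pow (by positivity), ← ENNReal.ofReal_coe_nnreal,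
          ← ENNReal.ofReal_mul (by positivity), NNReal.coe_real_pi]
        refine ENNReal.ofReal_le_ofReal ?_
        nlinarith [Real.pi_lt_four, sq_nonneg d]
    _ ≤ _ := by
        rw [← ENNReal.ofReal_sum_of_nonneg fun _ _ => by positivity, Finset.sum_const, nsmul_eq_mul]
        refine ENNReal.ofReal_le_ofReal (mul_le_mul_of_nonneg_right ?_ (by positivity))
        rw [le_div_iff₀ (by positivity)]
        exact hbound _ ⟨F, rfl, hF, hsep⟩

/-- `∫_S f ≤ c ∫_S f² + |S| / c`. -/
theorem lintegral_le_sq_add {f : ℂ → ℝ≥0∞} (hf : Measurable f) (S : Set ℂ) {c : ℝ} (hc : 0 < c) :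
    ∫⁻ y in S, f y ≤
      (ENNReal.ofReal c * ∫⁻ y in S, f y ^ 2) + ENNReal.ofReal (1 / c) * volume S := by
  have hpt : ∀ a : ℝ≥0∞, a ≤ ENNReal.ofReal c * a ^ 2 + ENNReal.ofReal (1 / c) := fun a => by
    rcases le_total a (ENNReal.ofReal (1 / c)) with h | h
    · exact h.trans le_add_self
    · refine le_trans ?_ le_self_add
      calc a = ENNReal.ofReal c * ENNReal.ofReal (1 / c) * a := by
            rw [← ENNReal.ofReal_mul hc.le, mul_one_div_cancel hc.ne', ENNReal.ofReal_one, one_mul]
        _ ≤ ENNReal.ofReal c * a * a := by gcongr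
        _ = ENNReal.ofReal c * a ^ 2 := by ring
  refine (lintegral_mono fun y => hpt (f y)).trans (le_of_eq ?_)
  rw [lintegral_add_left ((hf.pow_const 2).const_mul _), lintegral_const_mul _ (hf.pow_const 2),
    setLIntegral_const]

/-- At most `N` dyadic scales see a point at distance comparable to the scale. -/
theorem card_scales_le {θ d R : ℝ} (hR : 0 < R) {N : ℕ} (hN : (1 / 2 : ℝ) ^ N < θ)
    (K₀ : ℕ) :
    ((Finset.range K₀).filter fun k => θ * (R / 2 ^ k) ≤ d ∧ d ≤ R / 2 ^ k).card ≤ N := by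
  set S := (Finset.range K₀).filter fun k => θ * (R / 2 ^ k) ≤ d ∧ d ≤ R / 2 ^ k
  rcases S.eq_empty_or_nonempty with h | h
  · simp [h]
  obtain ⟨k, hk, hmin⟩ := S.exists_min_image id h
  refine (Finset.card_le_card (t := Finset.Ico k (k + N)) fun l hl => ?_).trans (by simp)
  have h1 := (Finset.mem_filter.1 hk).2.1
  have h2 := (Finset.mem_filter.1 hl).2.2
  have hkl : k ≤ l := hmin l hl
  refine Finset.mem_Ico.2 ⟨hkl, ?_⟩
  by_contra hge
  push Not at hge
  obtain ⟨m, rfl⟩ := Nat.exists_eq_add_of_le hkl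
  have h3 : (1 / 2 : ℝ) ^ m ≤ (1 / 2) ^ N :=
    pow_le_pow_of_le_one (by norm_num) (by norm_num) (by omega)
  have h4 : R / 2 ^ (k + m) = (1 / 2) ^ m * (R / 2 ^ k) := by
    rw [pow_add, div_pow, one_pow]; field_simp
  have h5 : θ * (R / 2 ^ k) ≤ (1 / 2) ^ m * (R / 2 ^ k) := h1.trans (h2.trans_eq h4)
  have h6 := le_of_mul_le_mul_right h5 (by positivity)
  linarith

/-- The scales `t / (4 · 2 ^ k)`, `k < K₀`: one of them, at some centre, has small far energy. -/
theorem exists_far (hU : UpperSpec) {η : ℝ} (hη : 0 < η)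
    (h : IsAlmostMin U K u G A M Λ) {x : ℂ} {R θ σ : ℝ} (hR : 0 < R)
    (hsub : closedBall x (4 * R) ⊆ U) (hΛ : Λ * (4 * R) ≤ 1) (hσ : 0 < σ)
    (hmass : ENNReal.ofReal (η * R) ≤ μH[1] (K ∩ closedBall x R)) {N K₀ : ℕ}
    (hN : (1 / 2 : ℝ) ^ N < θ) (hK₀ : 256 * (N : ℝ) < σ * η * K₀) :
    ∃ z ∈ K ∩ closedBall x R, ∃ k < K₀,
      ∫⁻ y in ball z (R / 2 ^ k) ∩ {y | θ * (R / 2 ^ k) ≤ infDist y K}, gnorm U K G y ^ 2 ≤
        ENNReal.ofReal (σ * (R / 2 ^ k)) := by
  classical
  by_contra hno
  push Not at hno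
  have hsR : closedBall x R ⊆ U := (closedBall_subset_closedBall (by linarith)).trans hsub
  set A' := K ∩ closedBall x R with hA'
  have hA'm : MeasurableSet A' := measurableSet_inter_closedBall h hsR
  have hfin : IsFiniteMeasure ((μH[1] : Measure ℂ).restrict A') := isFiniteMeasure_restrict.2
    ((length_le' hU h x hR hsR (by nlinarith [Λ_nonneg h])).trans_lt ENNReal.ofReal_lt_top).ne
  set f2 : ℂ → ℝ≥0∞ := fun y => gnorm U K G y ^ 2 with hf2
  have hf2m : Measurable f2 := (measurable_gnorm h).pow_const 2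
  set F : ℕ → ℂ → ℂ → ℝ≥0∞ := fun k z y => ENNReal.ofReal (2 ^ k / R) *
    ((ball z (R / 2 ^ k) ∩ {y | θ * (R / 2 ^ k) ≤ infDist y K}).indicator f2 y) with hF
  have hFm : ∀ k, Measurable (Function.uncurry (F k)) := fun k => by
    refine Measurable.const_mul ?_ _
    have hs : MeasurableSet {q : ℂ × ℂ | q.2 ∈ ball q.1 (R / 2 ^ k) ∩
        {y | θ * (R / 2 ^ k) ≤ infDist y K}} := by
      refine MeasurableSet.inter ?_ ?_
      · exact (isOpen_lt (continuous_snd.dist continuous_fst) continuous_const).measurableSet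
      · exact (isClosed_le continuous_const
          ((continuous_infDist_pt K).comp continuous_snd)).measurableSet
    exact (hf2m.comp measurable_snd).indicator hs
  have hlow : ∀ k < K₀, ∀ z ∈ A', ENNReal.ofReal σ ≤ ∫⁻ y, F k z y := fun k hk z hz => by
    have hb := (hno z hz k hk).le
    simp only [hF]
    rw [lintegral_const_mul' _ _ ENNReal.ofReal_ne_top,
      lintegral_indicator (measurableSet_ball.inter
        (isClosed_le continuous_const (continuous_infDist_pt K)).measurableSet)]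
    refine le_trans (le_of_eq ?_) (mul_le_mul_right hb _)
    rw [← ENNReal.ofReal_mul (by positivity)]
    congr 1
    field_simp
  have hne : K.Nonempty := by
    by_contra hne
    rw [hA', not_nonempty_iff_eq_empty.1 hne] at hmass
    simp at hmass
    nlinarith
  have hup : ∀ y, ∑ k ∈ Finset.range K₀, ∫⁻ z in A', F k z y ∂μH[1] ≤
      (closedBall x (2 * R)).indicator (fun y => ENNReal.ofReal (8 * N) * f2 y) y := by
    intro y
    have hterm : ∀ k, ∫⁻ z in A', F k z y ∂μH[1] ≤
        if θ * (R / 2 ^ k) ≤ infDist y K ∧ infDist y K ≤ R / 2 ^ k ∧ y ∈ closedBall x (2 * R)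
        then ENNReal.ofReal 8 * f2 y else 0 := by
      intro k
      have hk0 : 0 < R / 2 ^ k := by positivity
      have hkR : R / 2 ^ k ≤ R := div_le_self hR.le (one_le_pow₀ (by norm_num))
      split_ifs with hc
      · calc ∫⁻ z in A', F k z y ∂μH[1]
            ≤ ∫⁻ z in A', (ball y (R / 2 ^ k)).indicator
                (fun _ => ENNReal.ofReal (2 ^ k / R) * f2 y) z ∂μH[1] := by
              refine lintegral_mono fun z => ?_
              simp only [hF, indicator_apply]
              split_ifs with h1 h2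
              · exact le_rfl
              · exact absurd (mem_ball'.1 h1.1) (fun h' => h2 (mem_ball.2 h'))
              all_goals simp
          _ = ENNReal.ofReal (2 ^ k / R) * f2 y * μH[1] (ball y (R / 2 ^ k) ∩ A') := by
              rw [lintegral_indicator measurableSet_ball, setLIntegral_const,
                Measure.restrict_apply measurableSet_ball]
          _ ≤ ENNReal.ofReal (2 ^ k / R) * f2 y * ENNReal.ofReal (8 * (R / 2 ^ k)) := by
              gcongr
              refine (measure_mono (show ball y (R / 2 ^ k) ∩ A' ⊆ K ∩ closedBall y (R / 2 ^ k) from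
                fun w hw => ⟨hw.2.1, ball_subset_closedBall hw.1⟩)).trans
                (length_le' hU h y hk0 ((closedBall_subset_closedBall' ?_).trans hsub) ?_)
              · linarith [mem_closedBall.1 hc.2.2]
              · nlinarith [Λ_nonneg h]
          _ = ENNReal.ofReal 8 * f2 y := by
              rw [mul_right_comm, ← ENNReal.ofReal_mul (by positivity)]
              congr 2
              field_simp
      · refine le_of_eq (setLIntegral_eq_zero hA'm fun z hz => ?_)
        simp only [hF, Pi.zero_apply, indicator_apply]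
        rw [if_neg, mul_zero]
        rintro ⟨h1, h2⟩
        refine hc ⟨h2, (infDist_le_dist_of_mem hz.1).trans (mem_ball.1 h1).le, ?_⟩
        rw [mem_closedBall]
        linarith [dist_triangle y z x, mem_ball.1 h1, mem_closedBall.1 hz.2]
    refine (Finset.sum_le_sum fun k _ => hterm k).trans ?_
    rw [← Finset.sum_filter, Finset.sum_const, nsmul_eq_mul]
    by_cases hy : y ∈ closedBall x (2 * R)
    · rw [indicator_of_mem hy, ← mul_assoc]
      gcongr
      rw [mul_comm (8 : ℝ) (N : ℝ), ENNReal.ofReal_mul (by positivity), ENNReal.ofReal_natCast]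
      refine mul_le_mul_left (α := ℝ≥0∞) (Nat.cast_le.2 ?_) _
      exact (Finset.card_le_card (t := (Finset.range K₀).filter fun k =>
        θ * (R / 2 ^ k) ≤ infDist y K ∧ infDist y K ≤ R / 2 ^ k) fun k hk => by
        simp only [Finset.mem_filter] at hk ⊢; exact ⟨hk.1, hk.2.1, hk.2.2.1⟩).trans
          (card_scales_le hR hN K₀)
    · rw [Finset.filter_false_of_mem fun k _ hk => hy hk.2.2]
      simp
  have htot : (K₀ : ℝ≥0∞) * (ENNReal.ofReal σ * ENNReal.ofReal (η * R)) ≤
      ENNReal.ofReal (8 * N) * ENNReal.ofReal (8 * (2 * R)) := by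
    calc (K₀ : ℝ≥0∞) * (ENNReal.ofReal σ * ENNReal.ofReal (η * R))
        ≤ ∑ k ∈ Finset.range K₀, ∫⁻ z in A', (∫⁻ y, F k z y) ∂μH[1] := by
          rw [← nsmul_eq_mul]
          conv_lhs => rw [← Finset.card_range K₀]
          refine Finset.card_nsmul_le_sum _ _ _ fun k hk => ?_
          refine le_trans ?_ (setLIntegral_mono' hA'm fun z hz => hlow k (Finset.mem_range.1 hk) z hz)
          rw [setLIntegral_const]
          gcongr
      _ = ∑ k ∈ Finset.range K₀, ∫⁻ y, ∫⁻ z in A', F k z y ∂μH[1] :=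
          Finset.sum_congr rfl fun k _ => lintegral_lintegral_swap (hFm k).aemeasurable
      _ = ∫⁻ y, ∑ k ∈ Finset.range K₀, ∫⁻ z in A', F k z y ∂μH[1] :=
          (lintegral_finsetSum _ fun k _ => (hFm k).lintegral_prod_left').symm
      _ ≤ ∫⁻ y, (closedBall x (2 * R)).indicator (fun y => ENNReal.ofReal (8 * N) * f2 y) y :=
          lintegral_mono hup
      _ = ENNReal.ofReal (8 * N) * ∫⁻ y in closedBall x (2 * R), f2 y := by
          rw [lintegral_indicator measurableSet_closedBall, lintegral_const_mul _ hf2m]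
      _ ≤ _ := by
          gcongr
          exact (lintegral_gnorm_sq_le h measurableSet_closedBall).trans (energy_le hU h x
            (by linarith) ((closedBall_subset_closedBall (by linarith)).trans hsub)
            (by nlinarith [Λ_nonneg h]))
  rw [← ENNReal.ofReal_natCast, ← ENNReal.ofReal_mul hσ.le, ← ENNReal.ofReal_mul (by positivity),
    ← ENNReal.ofReal_mul (by positivity), ENNReal.ofReal_le_ofReal_iff (by positivity)] at htot
  nlinarith [Nat.cast_nonneg (α := ℝ) N]

/-- A centre and a comparable scale at which `∫ ‖G‖` is small. -/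
theorem exists_small_scale (hU : UpperSpec) {η δ : ℝ} (hη : 0 < η) (hδ : 0 < δ)
    (hlow : ∀ (U K : Set ℂ) (u : ℂ → ℝ) (G : ℂ → ℂ) (A M Λ : ℝ), IsAlmostMin U K u G A M Λ →
      IsReducedIn U K → ∀ z ∈ K, ∀ t : ℝ, 0 < t → closedBall z t ⊆ U → Λ * t ≤ δ →
        ENNReal.ofReal (η * t) ≤ μH[1] (K ∩ closedBall z t))
    {S : ℝ} (hS : 0 < S) :
    ∃ c : ℝ, 0 < c ∧ ∀ (U K : Set ℂ) (u : ℂ → ℝ) (G : ℂ → ℂ) (A M Λ : ℝ),
      IsAlmostMin U K u G A M Λ → IsReducedIn U K → ∀ x ∈ K, ∀ t : ℝ, 0 < t →
        closedBall x t ⊆ U → Λ * t ≤ δ → Λ * t ≤ 1 →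
        ∃ z ∈ K, ∃ ρ : ℝ, c * t ≤ ρ ∧ closedBall z ρ ⊆ closedBall x t ∧
          ∫⁻ y in ball z ρ, gnorm U K G y ≤ ENNReal.ofReal (S * ρ * Real.sqrt ρ) := by
  set C := 8 + 864 / η with hC
  have hC0 : 0 < C := by positivity
  set q := min 1 (S / (2 * C)) with hq
  have hq0 : 0 < q := by positivity
  set θ := q ^ 2 with hθdef
  have hθ : 0 < θ := by positivity
  have hθ1 : θ ≤ 1 := pow_le_one₀ hq0.le (min_le_left _ _)
  set σ := S / 10 with hσdef
  have hσ : 0 < σ := by positivity
  obtain ⟨N, hN⟩ := exists_pow_lt_of_lt_one hθ (show (1 / 2 : ℝ) < 1 by norm_num)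
  obtain ⟨K₀, hK₀⟩ := exists_nat_gt (256 * (N : ℝ) / (σ ^ 2 * η))
  refine ⟨1 / (4 * 2 ^ K₀), by positivity, fun U K u G A M Λ h hred x hx t ht hsub hΛt hΛ1 => ?_⟩
  have hΛ0 := Λ_nonneg h
  have h4 : closedBall x (4 * (t / 4)) ⊆ U := by rwa [mul_div_cancel₀ t (by norm_num)]
  have hmass := hlow U K u G A M Λ h hred x hx (t / 4) (by linarith)
    ((closedBall_subset_closedBall (by linarith)).trans hsub) (by nlinarith)
  obtain ⟨z, hz, k, hk, hfar⟩ := exists_far (K₀ := K₀) hU hη h (by linarith) h4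
    (by nlinarith) (sq_pos_of_pos hσ) hmass hN
    (by rw [div_lt_iff₀ (by positivity)] at hK₀; linarith)
  set ρ := t / 4 / 2 ^ k with hρdef
  have hρ : 0 < ρ := by positivity
  have hρt : ρ ≤ t / 4 := div_le_self (by linarith) (one_le_pow₀ (by norm_num))
  have hzsub : closedBall z (3 * ρ) ⊆ closedBall x t :=
    closedBall_subset_closedBall' (by linarith [mem_closedBall.1 hz.2])
  refine ⟨z, hz.1, ρ, ?_, (closedBall_subset_closedBall (by linarith)).trans hzsub, ?_⟩
  · rw [hρdef, div_div, one_div_mul_eq_div]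
    gcongr
    norm_num
  set near := ball z ρ ∩ {y | infDist y K < θ * ρ} with hnear
  set far := ball z ρ ∩ {y | θ * ρ ≤ infDist y K} with hfardef
  set sq := Real.sqrt ρ with hsq
  have hsq0 : 0 < sq := Real.sqrt_pos.2 hρ
  have hsq2 : sq * sq = ρ := Real.mul_self_sqrt hρ.le
  have hf := measurable_gnorm h
  have hcnear : 0 < q * sq := by positivity
  have hnearb : ∫⁻ y in near, gnorm U K G y ≤ ENNReal.ofReal (C * q * (ρ * sq)) := by
    refine (lintegral_le_sq_add hf near hcnear).trans ?_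
    refine le_trans (add_le_add (mul_le_mul_right
      (show ∫⁻ y in near, gnorm U K G y ^ 2 ≤ ENNReal.ofReal (8 * ρ) from ?_) _) (mul_le_mul_right
      (area_le hU (δ := δ) hη (fun a ha s => hlow U K u G A M Λ h hred a ha s) h (by positivity)
        (mul_le_of_le_one_left hρ.le hθ1) (hzsub.trans hsub) ⟨x, hx⟩ (by nlinarith)
        (by nlinarith [mul_le_mul_of_nonneg_left hθ1 (mul_nonneg hΛ0 hρ.le)])) _))
      (le_of_eq ?_)
    · exact (lintegral_mono_set (inter_subset_left.trans ball_subset_closedBall)).trans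
        ((lintegral_gnorm_sq_le h measurableSet_closedBall).trans (energy_le hU h z hρ
          ((closedBall_subset_closedBall (by linarith)).trans (hzsub.trans hsub)) (by nlinarith)))
    · rw [← ENNReal.ofReal_mul hcnear.le, ← ENNReal.ofReal_mul (by positivity),
        ← ENNReal.ofReal_add (by positivity) (by positivity)]
      congr 1
      rw [hC, hθdef]
      field_simp
      linear_combination (-864 : ℝ) * hsq2
  have hcfar : 0 < sq / σ := by positivity
  have hfarb : ∫⁻ y in far, gnorm U K G y ≤ ENNReal.ofReal (5 * σ * (ρ * sq)) := by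
    refine (lintegral_le_sq_add hf far hcfar).trans ?_
    refine le_trans (add_le_add (mul_le_mul_right hfar _) (mul_le_mul_right
      (show volume far ≤ ENNReal.ofReal (4 * ρ ^ 2) from ?_) _)) (le_of_eq ?_)
    · refine (measure_mono inter_subset_left).trans ?_
      rw [Complex.volume_ball, ← ENNReal.ofReal_pow hρ.le, ← ENNReal.ofReal_coe_nnreal,
        ← ENNReal.ofReal_mul (by positivity), NNReal.coe_real_pi]
      exact ENNReal.ofReal_le_ofReal (by nlinarith [Real.pi_lt_four, sq_nonneg ρ])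
    · rw [← ENNReal.ofReal_mul hcfar.le, ← ENNReal.ofReal_mul (by positivity),
        ← ENNReal.ofReal_add (by positivity) (by positivity)]
      congr 1
      field_simp
      rw [pow_two sq, hsq2]
      ring
  have hun : ball z ρ ⊆ near ∪ far := fun y hy => (lt_or_ge (infDist y K) (θ * ρ)).imp
    (fun h' => ⟨hy, h'⟩) fun h' => ⟨hy, h'⟩
  refine ((lintegral_mono_set hun).trans (lintegral_union_le _ _ _)).trans
    ((add_le_add hnearb hfarb).trans ?_)
  rw [← ENNReal.ofReal_add (by positivity) (by positivity)]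
  refine ENNReal.ofReal_le_ofReal ?_
  have h1 : C * q ≤ S / 2 :=
    (mul_le_mul_of_nonneg_left (min_le_right _ _) hC0.le).trans_eq (by field_simp)
  rw [show 5 * σ = S / 2 by rw [hσdef]; ring]
  nlinarith [mul_le_mul_of_nonneg_right h1 (mul_nonneg hρ.le hsq0.le)]

end Vale.Agent.P128.Bridge
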